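import Mathlib

/-! # P012: the lower bound `N(b - 1, b) ≫ log log b` (Erdős 1950), elementary proof -/

namespace Vale.Agent.Lib.P012c

open Finset

/-- A sum of `k` distinct unit fractions that is smaller than `p / q` misses it by at least
`1 / (2 (k + 1) q) ^ (2 ^ k)`. -/
theorem gap_lemma : ∀ (k : ℕ) (q p : ℕ) (S : Finset ℕ), 0 < q → S.card = k → (∀ n ∈ S, 1 ≤ n) →
    (∑ n ∈ S, (1 / (n : ℚ))) < (p : ℚ) / q →
    1 / (((2 * (k + 1) * q) ^ (2 ^ k) : ℕ) : ℚ) ≤ (p : ℚ) / q - ∑ n ∈ S, (1 / (n : ℚ)) := by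
  intro k
  induction k with
  | zero =>
    intro q p S hq hS _ hlt
    rw [Finset.card_eq_zero] at hS
    subst hS
    simp only [Finset.sum_empty, sub_zero] at hlt ⊢
    have hq' : (0 : ℚ) < q := by exact_mod_cast hq
    have hp : 1 ≤ p := by
      rcases Nat.eq_zero_or_pos p with h | h
      · subst h
        simp at hlt
      · exact h
    have hp' : (1 : ℚ) ≤ p := by exact_mod_cast hp
    push_cast
    rw [div_le_div_iff₀ (by positivity) hq']
    nlinarith
  | succ k ih =>
    intro q p S hq hS hS1 hlt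
    have hq' : (0 : ℚ) < q := by exact_mod_cast hq
    have hne : S.Nonempty := by
      rw [← Finset.card_pos, hS]
      exact Nat.succ_pos k
    set m := S.min' hne with hm
    have hmS : m ∈ S := S.min'_mem hne
    have hm1 : 1 ≤ m := hS1 m hmS
    have hm' : (0 : ℚ) < m := by exact_mod_cast hm1
    have hsum : ∑ n ∈ S, (1 / (n : ℚ)) = 1 / (m : ℚ) + ∑ n ∈ S.erase m, (1 / (n : ℚ)) :=
      (Finset.add_sum_erase S (fun n => 1 / (n : ℚ)) hmS).symm
    have hnn : 0 ≤ ∑ n ∈ S.erase m, (1 / (n : ℚ)) := Finset.sum_nonneg fun n _ => by positivity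
    have hcard : (S.erase m).card = k := by
      rw [Finset.card_erase_of_mem hmS, hS]
      rfl
    have hk' : (0 : ℚ) ≤ k := Nat.cast_nonneg k
    by_cases hcase : m ≤ 2 * (k + 1) * q
    · -- the least denominator is small
      have h1 : 1 / (m : ℚ) < (p : ℚ) / q := by
        rw [hsum] at hlt
        linarith
      have h2 : q < p * m := by
        rw [div_lt_div_iff₀ hm' hq'] at h1
        have : (q : ℚ) < (p : ℚ) * m := by linarith
        exact_mod_cast this
      have e1 : ((p * m - q : ℕ) : ℚ) / ((q * m : ℕ) : ℚ) = (p : ℚ) / q - 1 / (m : ℚ) := by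
        rw [Nat.cast_sub h2.le]
        push_cast
        field_simp
      have h3 := ih (q * m) (p * m - q) (S.erase m) (Nat.mul_pos hq hm1) hcard
        (fun n hn => hS1 n (Finset.mem_of_mem_erase hn)) (by rw [e1]; rw [hsum] at hlt; linarith)
      rw [e1] at h3
      have h4 : (2 * (k + 1) * (q * m)) ^ (2 ^ k) ≤ (2 * (k + 1 + 1) * q) ^ (2 ^ (k + 1)) := by
        have e2 : (2 * (k + 1 + 1) * q) ^ (2 ^ (k + 1)) = ((2 * (k + 1 + 1) * q) ^ 2) ^ (2 ^ k) := by
          rw [← pow_mul, pow_succ 2 k, mul_comm (2 ^ k) 2]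
        rw [e2]
        apply Nat.pow_le_pow_left
        calc 2 * (k + 1) * (q * m) ≤ 2 * (k + 1) * (q * (2 * (k + 1) * q)) := by gcongr
          _ = (2 * (k + 1) * q) ^ 2 := by ring
          _ ≤ (2 * (k + 1 + 1) * q) ^ 2 := by
              apply Nat.pow_le_pow_left
              gcongr
              omega
      have h5 : 0 < (2 * (k + 1) * (q * m)) ^ (2 ^ k) := by positivity
      have h6 : 1 / (((2 * (k + 1 + 1) * q) ^ (2 ^ (k + 1)) : ℕ) : ℚ)
          ≤ 1 / (((2 * (k + 1) * (q * m)) ^ (2 ^ k) : ℕ) : ℚ) := by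
        apply one_div_le_one_div_of_le (by exact_mod_cast h5)
        exact_mod_cast h4
      rw [hsum]
      linarith
    · -- the least denominator is large
      push Not at hcase
      have hp : 1 ≤ p := by
        rcases Nat.eq_zero_or_pos p with h | h
        · subst h
          rw [hsum] at hlt
          have : (0 : ℚ) < 1 / (m : ℚ) := by positivity
          simp only [Nat.cast_zero, zero_div] at hlt
          linarith
        · exact h
      have hp' : (1 : ℚ) ≤ p := by exact_mod_cast hp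
      have hle : ∑ n ∈ S, (1 / (n : ℚ)) ≤ ∑ _n ∈ S, (1 / (m : ℚ)) := by
        apply Finset.sum_le_sum
        intro n hn
        apply one_div_le_one_div_of_le hm'
        exact_mod_cast S.min'_le n hn
      rw [Finset.sum_const, hS, nsmul_eq_mul] at hle
      have hcase' : (2 * ((k : ℚ) + 1) * q) < m := by exact_mod_cast hcase
      have h7 : ((k + 1 : ℕ) : ℚ) * (1 / (m : ℚ)) ≤ 1 / (2 * q) := by
        push_cast
        rw [mul_one_div, div_le_div_iff₀ hm' (by positivity)]
        nlinarith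
      have h8 : 1 / (q : ℚ) ≤ (p : ℚ) / q := by
        apply div_le_div_of_nonneg_right hp' hq'.le
      have h9 : 1 / (q : ℚ) - 1 / (2 * q) = 1 / (2 * q) := by
        field_simp
        norm_num
      have h10 : 2 * q ≤ (2 * (k + 1 + 1) * q) ^ (2 ^ (k + 1)) := by
        calc 2 * q ≤ 2 * (k + 1 + 1) * q := by nlinarith
          _ = (2 * (k + 1 + 1) * q) ^ 1 := (pow_one _).symm
          _ ≤ (2 * (k + 1 + 1) * q) ^ (2 ^ (k + 1)) := by
              apply Nat.pow_le_pow_right (by positivity)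
              exact Nat.one_le_two_pow
      have h11 : 1 / (((2 * (k + 1 + 1) * q) ^ (2 ^ (k + 1)) : ℕ) : ℚ) ≤ 1 / (2 * (q : ℚ)) := by
        apply one_div_le_one_div_of_le (by positivity)
        exact_mod_cast h10
      linarith

/-- If `(b - 1) / b` is a sum of `k` distinct unit fractions then `b ≤ 2 ^ (4 ^ k)`. -/
theorem le_of_rep (b : ℕ) (hb : 2 ≤ b) (S : Finset ℕ) (hS : ∀ n ∈ S, 2 ≤ n)
    (hsum : ∑ n ∈ S, (1 / (n : ℚ)) = ((b - 1 : ℕ) : ℚ) / (b : ℚ)) : b ≤ 2 ^ (4 ^ S.card) := by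
  have hb' : (0 : ℚ) < b := by exact_mod_cast (by omega : 0 < b)
  have e : ((b - 1 : ℕ) : ℚ) / (b : ℚ) = 1 - 1 / (b : ℚ) := by
    rw [Nat.cast_sub (by omega)]
    field_simp
    simp
  have h := gap_lemma S.card 1 1 S one_pos rfl (fun n hn => by have := hS n hn; omega) (by
    rw [hsum, e]
    have : (0 : ℚ) < 1 / (b : ℚ) := by positivity
    simp only [Nat.cast_one, div_one]
    linarith)
  rw [hsum, e] at h
  simp only [Nat.cast_one, div_one, mul_one] at h
  have h2 : 1 / (((2 * (S.card + 1)) ^ (2 ^ S.card) : ℕ) : ℚ) ≤ 1 / (b : ℚ) := by linarith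
  have hG : 0 < (2 * (S.card + 1)) ^ (2 ^ S.card) := by positivity
  have h3 : (b : ℚ) ≤ (((2 * (S.card + 1)) ^ (2 ^ S.card) : ℕ) : ℚ) := by
    rw [div_le_div_iff₀ (by exact_mod_cast hG) hb'] at h2
    linarith
  have h4 : b ≤ (2 * (S.card + 1)) ^ (2 ^ S.card) := by exact_mod_cast h3
  refine h4.trans ?_
  have h5 : S.card + 1 ≤ 2 ^ S.card := Nat.lt_two_pow_self
  calc (2 * (S.card + 1)) ^ (2 ^ S.card) ≤ (2 * 2 ^ S.card) ^ (2 ^ S.card) := by gcongr
    _ = 2 ^ ((S.card + 1) * 2 ^ S.card) := by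
        rw [← pow_succ', ← pow_mul]
    _ ≤ 2 ^ (2 ^ S.card * 2 ^ S.card) := by
        apply Nat.pow_le_pow_right (by norm_num)
        gcongr
    _ = 2 ^ (4 ^ S.card) := by
        congr 1
        rw [← mul_pow]
        norm_num

/-- The lower bound: every representation of `(b - 1) / b` needs at least `(log log b) / 3`
distinct unit fractions. -/
theorem lower_bound (b : ℕ) (hb : 16 ≤ b) (S : Finset ℕ) (hS : ∀ n ∈ S, 2 ≤ n)
    (hsum : ∑ n ∈ S, (1 / (n : ℚ)) = ((b - 1 : ℕ) : ℚ) / (b : ℚ)) :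
    (1 / 3 : ℝ) * Real.log (Real.log (b : ℝ)) ≤ (S.card : ℝ) := by
  have h := le_of_rep b (by omega) S hS hsum
  have hbR : (16 : ℝ) ≤ b := by exact_mod_cast hb
  have h1 : (b : ℝ) ≤ (2 : ℝ) ^ (4 ^ S.card) := by exact_mod_cast h
  have hlogpos : 0 < Real.log (b : ℝ) := Real.log_pos (by linarith)
  have h2 : Real.log (b : ℝ) ≤ (4 : ℝ) ^ S.card := by
    calc Real.log (b : ℝ) ≤ Real.log ((2 : ℝ) ^ (4 ^ S.card)) :=
          Real.log_le_log (by linarith) h1
      _ = ((4 ^ S.card : ℕ) : ℝ) * Real.log 2 := Real.log_pow _ _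
      _ ≤ ((4 ^ S.card : ℕ) : ℝ) * 1 := by
          apply mul_le_mul_of_nonneg_left _ (Nat.cast_nonneg _)
          have := Real.log_le_sub_one_of_pos (show (0 : ℝ) < 2 by norm_num)
          linarith
      _ = (4 : ℝ) ^ S.card := by push_cast; ring
  have h3 : Real.log (Real.log (b : ℝ)) ≤ (S.card : ℝ) * 3 := by
    calc Real.log (Real.log (b : ℝ)) ≤ Real.log ((4 : ℝ) ^ S.card) := Real.log_le_log hlogpos h2
      _ = (S.card : ℝ) * Real.log 4 := Real.log_pow _ _
      _ ≤ (S.card : ℝ) * 3 := by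
          apply mul_le_mul_of_nonneg_left _ (Nat.cast_nonneg _)
          have := Real.log_le_sub_one_of_pos (show (0 : ℝ) < 4 by norm_num)
          linarith
  linarith

end Vale.Agent.Lib.P012c
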